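import Vale.Agent.P261.H658.F

/-!
# P261, stage 2, leaf K11: the zero line in weight `0` is the prime field
-/

open Vale.Agent.P251.F Vale.Agent.P251 Vale.Agent.P217 CategoryTheory

namespace Vale.Agent.P261

namespace H555

section alg

variable {k : Type} [Field k] {p : ℕ} [Fact p.Prime] [CharP k p] {n : ℕ}

/-- In a power series ring over a field of characteristic `p`: if all the powers of `a` are in a
finite set, then `a` is a constant `c`, `c ^ p ^ m = c`. -/
theorem eq_C_of_finite (S : Set (MvPowerSeries (Fin n) k)) (hS : S.Finite)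
    (a : MvPowerSeries (Fin n) k) (ha : ∀ m : ℕ, a ^ p ^ m ∈ S) :
    a = MvPowerSeries.C (MvPowerSeries.constantCoeff a) := by
  have hp : p.Prime := Fact.out
  have : CharP (MvPowerSeries (Fin n) k) p :=
    charP_of_injective_ringHom (MvPowerSeries.C_injective (σ := Fin n) (R := k)) p
  have hfin : Finite S := hS
  obtain ⟨i, j, hij, h1⟩ := Finite.exists_ne_map_eq_of_infinite (fun m : ℕ => (⟨a ^ p ^ m, ha m⟩ : S))
  have h2 : a ^ p ^ i = a ^ p ^ j := congrArg Subtype.val h1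
  -- wlog `i < j`
  obtain ⟨m, hm, h3⟩ : ∃ m : ℕ, m ≠ 0 ∧ a ^ p ^ m = a := by
    have key : ∀ i j : ℕ, i < j → a ^ p ^ i = a ^ p ^ j → ∃ m : ℕ, m ≠ 0 ∧ a ^ p ^ m = a := by
      intro i j hlt h
      refine ⟨j - i, by omega, ?_⟩
      have h4 : (a ^ p ^ (j - i)) ^ p ^ i = a ^ p ^ i := by
        rw [← pow_mul, ← pow_add, Nat.sub_add_cancel hlt.le, h]
      exact iterateFrobenius_inj (MvPowerSeries (Fin n) k) p i (by
        rw [iterateFrobenius_def, iterateFrobenius_def, h4])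
    rcases lt_or_gt_of_ne hij with h | h
    · exact key i j h h2
    · exact key j i h h2.symm
  set c := MvPowerSeries.constantCoeff a with hc
  have h4 : c ^ p ^ m = c := by rw [hc, ← map_pow, h3]
  set u := a - MvPowerSeries.C c with hu
  have h5 : u ^ p ^ m = u := by
    rw [hu, sub_pow_char_pow, h3, ← map_pow, h4]
  have h6 : MvPowerSeries.constantCoeff u = 0 := by
    rw [hu, map_sub, MvPowerSeries.constantCoeff_C, ← hc, sub_self]
  have hpm : 1 < p ^ m := Nat.one_lt_pow hm hp.one_lt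
  have h7 : u * (u ^ (p ^ m - 1) - 1) = 0 := by
    rw [mul_sub, mul_one, ← pow_succ', Nat.sub_add_cancel hpm.le, h5, sub_self]
  have h8 : u = 0 := by
    rcases mul_eq_zero.1 h7 with h | h
    · exact h
    · exfalso
      have h9 := congrArg MvPowerSeries.constantCoeff h
      rw [map_sub, map_pow, h6, zero_pow (by omega), map_one, map_zero, zero_sub] at h9
      exact one_ne_zero (neg_eq_zero.1 h9)
  exact sub_eq_zero.1 h8

theorem exists_nat_of_pow_eq {c : k} (h : c ^ p = c) : ∃ a : ℕ, a < p ∧ c = (a : k) := by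
  have hp : p.Prime := Fact.out
  have h1 := (Subfield.mem_bot_iff_pow_eq_self (p := p) (x := c)).2 h
  rw [← ZMod.fieldRange_castHom_eq_bot p] at h1
  obtain ⟨y, hy⟩ := h1
  refine ⟨y.val, ZMod.val_lt y, ?_⟩
  rw [← hy, ← ZMod.natCast_zmod_val y]
  simp

end alg

variable {p h : ℕ} [Fact p.Prime] {k : Type} [Field k] (D : LTD p h k)

theorem isWt_natCast {N : Type} [CommRing N] [LawRing N] (a : ℕ) :
    Cob.IsWt 0 (a : Cob N 0) := by
  have h1 := Cob.IsWt.zsmul (Cob.isWt_one (N := N) (n := 0)) (a : ℤ)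
  rwa [zsmul_eq_mul, mul_one, Int.cast_natCast] at h1

theorem d_natCast {N : Type} [CommRing N] [LawRing N] (a : ℕ) :
    Cob.d 0 (a : Cob N 0) = 0 := by
  rw [Cob.d_apply, Fin.sum_univ_two]
  simp

omit [Fact p.Prime] in
theorem inv_zero_pow {L : Lev p h D.H (h - 1)} {a : MvPowerSeries (Fin (h - 1)) k}
    (ha : a ∈ L.inv 0) (m : ℕ) : a ^ m ∈ L.inv 0 := by
  intro γ
  have h1 := ha γ
  rw [zpow_zero, Units.val_one, one_mul] at h1
  rw [map_pow, h1, zpow_zero, Units.val_one, one_mul]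

theorem inv_finite (hh : 1 ≤ h) (L : Lev p h D.H (h - 1)) (hm : 1 ≤ L.m) (w : ℤ) :
    (L.inv w : Set (MvPowerSeries (Fin (h - 1)) k)).Finite := by
  have : Finite k := D.finite
  obtain ⟨n, rfl⟩ | rfl : (∃ n, h = n + 2) ∨ h = 1 := by
    rcases Nat.lt_or_ge h 2 with h1 | h1
    · exact Or.inr (by omega)
    · exact Or.inl ⟨h - 2, by omega⟩
  · exact (H658.isFin D.card D.honda n L hm w).1
  · have : Finite (Fin (1 - 1) →₀ ℕ) := inferInstanceAs (Finite (Fin 0 →₀ ℕ))
    have : Finite (MvPowerSeries (Fin (1 - 1)) k) :=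
      inferInstanceAs (Finite ((Fin (1 - 1) →₀ ℕ) → k))
    exact Set.toFinite _

/-- The value at the closed point of `E_0` is in the prime field. -/
theorem frob_π_valE (z : Cob (NN p h 1) 0) :
    (EE.π k (h - 1) 0 (valE D 0 z)) ^ p = EE.π k (h - 1) 0 (valE D 0 z) := by
  have := D.charP
  obtain ⟨a, rfl⟩ := H541.exists_C z
  rw [H541.valE_C]
  let ι : NN p h 1 →+* D.TT 0 := D.tower.ι 0
  let ψ : NN p h 1 →+* k := (EE.π k (h - 1) 0).comp (((D.coPt 0).e).comp ι)
  have hψ : (LawRing.law (N := NN p h 1)).map ψ = D.H := by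
    have h1 : (LawRing.law (N := NN p h 1)).map ι = LawRing.law (N := D.TT 0) :=
      (D.tower.ι_law 0).law
    have h2 : (LawRing.law (N := D.TT 0)).map (D.coPt 0).e = D.FE 0 := by
      have e1 : LawRing.law (N := D.TT 0) = (D.coPt 0).law (D.FE 0) := (D.isCo 0).law
      rw [e1, CoPt.law, InvSeries.map_smul, (D.coPt 0).e_f, Law.map_map, (D.coPt 0).e_ι,
        Law.map_id, one_smul]
    rw [← Law.map_map, ← Law.map_map, h1, h2, D.FE_map_π]
  have h3 : (frobenius k p).comp ψ = ψ := by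
    apply epi_NN p h 1
    rw [← Law.map_map, hψ]
    apply Law.ext
    exact map_frobenius_eq D.honda.frob
  exact RingHom.congr_fun h3 a

end H555

open H555 H658

theorem zero_line_zero (p h : ℕ) [Fact p.Prime] (hh : 1 ≤ h)
    (z : ∀ j, (I.towerN p h 0).C 0 j) (hz : z ∈ zero_line p h 0) :
    ∃ a : ℕ, a < p ∧ ∀ j, (z j).1 = (a : Cob (NN p h (j + 1)) 0) := by
  obtain ⟨D, hX⟩ := exists_LTD_X p h (by omega)
  obtain ⟨L, hm, hL⟩ := exists_lev D hX
  have := D.charP
  have h1 := val_mem D hL ⟨z, hz⟩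
  have h2 := eq_C_of_finite (p := p) _ (inv_finite D hh L hm.ge 0) (val D ⟨z, hz⟩)
    fun m => inv_zero_pow D h1 (p ^ m)
  set c := MvPowerSeries.constantCoeff (val D ⟨z, hz⟩) with hc
  have h3 : EE.π _ (h - 1) 0 (valE D 0 (z 0).1) = c := by
    rw [← tr_val D ⟨z, hz⟩ 0]
    exact RingHom.congr_fun (H654.π_comp_tr 0) _
  obtain ⟨a, ha, hca⟩ := exists_nat_of_pow_eq (p := p) (c := c) (by
    rw [← h3]
    exact frob_π_valE D _)
  refine ⟨a, ha, fun j => ?_⟩
  have h4 : valE D j ((z j).1 - (a : Cob (NN p h (j + 1)) 0)) = 0 := by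
    rw [map_sub, map_natCast, ← tr_val D ⟨z, hz⟩ j, h2, hca, map_natCast, map_natCast, sub_self]
  have h5 : Cob.IsWt 0 ((z j).1 - (a : Cob (NN p h (j + 1)) 0)) := by
    rw [sub_eq_add_neg]
    exact Cob.IsWt.add (z j).2 (isWt_natCast a).neg
  have h6 : Cob.d 0 ((z j).1 - (a : Cob (NN p h (j + 1)) 0)) = 0 := by
    have e1 : Cob.d 0 (z j).1 = 0 := congrArg Subtype.val (hz.2 j)
    rw [map_sub, e1, d_natCast, sub_zero]
  exact sub_eq_zero.1 (valE_inj D j 0 _ h5 h6 h4)

end Vale.Agent.P261
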