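import Vale.Agent.P261.H984.K4a
import Vale.Agent.P251.S.RegMU

/-!
# P261, stage 2, leaf K4: the homotopy of `R^{⊗ (s+1)} ⊗ C`, `C` the cofibre of `p^k`
-/

open CategoryTheory MonoidalCategory Limits Pretriangulated MonObj

set_option linter.unusedSectionVars false

universe v u

namespace Vale.Agent.P261

open Vale.Agent.P251 Vale.Agent.P251.T Vale.Agent.P251.M Vale.Agent.P251.S Vale.Agent.P251.F
  Vale.Agent.P251.I

section inj

variable {T : Type u} [Category.{v} T] [Preadditive T] [HasZeroObject T]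
    [HasShift T ℤ] [∀ n : ℤ, (shiftFunctor T n).Additive] [Pretriangulated T]
    [MonoidalCategory T]

/-- If `Z` has no odd homotopy, then `X ⟶ Y` is injective on even homotopy. -/
theorem injective_even_of_oddZero {X Y Z : T} {f : X ⟶ Y} {g : Y ⟶ Z} {e : Z ⟶ X⟦(1 : ℤ)⟧}
    (h : Triangle.mk f g e ∈ distTriang T) (hZ : OddZero Z) {n : ℤ}
    (hn : Even n) (x : Sph T n ⟶ X) (hx : x ≫ f = 0) : x = 0 := by
  have hodd : Odd (n + 1) := hn.add_one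
  let a := ((shiftFunctorAdd' T n 1 (n + 1) rfl).app (𝟙_ T))
  have h1 : (a.hom ≫ x⟦(1 : ℤ)⟧') ≫ f⟦(1 : ℤ)⟧' = 0 := by
    rw [Category.assoc, ← Functor.map_comp, hx, Functor.map_zero, comp_zero]
  obtain ⟨g, hg⟩ := exact₁ h (a.hom ≫ x⟦(1 : ℤ)⟧') h1
  rw [hZ _ hodd g, zero_comp] at hg
  apply (shiftFunctor T (1 : ℤ)).map_injective
  rw [Functor.map_zero]
  exact (cancel_epi a.hom).1 (by rw [hg, comp_zero])

end inj

variable {T : Type u} [Category.{v} T] [Preadditive T] [HasZeroObject T]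
    [HasShift T ℤ] [∀ n : ℤ, (shiftFunctor T n).Additive] [Pretriangulated T] [IsTriangulated T]
    [MonoidalCategory T] [SymmetricCategory T] [TensorTriangulated T] [MonoidalClosed T]
    [HasCoproducts.{0} T] [HasProducts.{0} T] [StableCat T]

theorem injective_S_of_oddZero {X Y Z : T} {f : X ⟶ Y} {g : Y ⟶ Z} {e : Z ⟶ X⟦(1 : ℤ)⟧}
    (h : Triangle.mk f g e ∈ distTriang T) (hZ : OddZero Z) (w : ℤ)
    (x : (stdEven T).S w ⟶ X) (hx : x ≫ f = 0) : x = 0 := by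
  let eS : (stdEven T).S w ≅ Sph T (2 * w) := (stdEven T).sphIso (Iso.refl _) w
  have h1 : eS.inv ≫ x = 0 :=
    injective_even_of_oddZero h hZ (even_two_mul w) _ (by rw [Category.assoc, hx, comp_zero])
  rw [← cancel_epi eS.inv, h1, comp_zero]

/-- the statement of K4 for the cofibres of `m` -/
structure MooreOK (D : MUData T) (m : ℤ) (s : ℕ) : Prop where
  odd : ∀ {C : T} {i : 𝟙_ T ⟶ C} {δ : C ⟶ (𝟙_ T)⟦(1 : ℤ)⟧}
    (_ : Triangle.mk (m • 𝟙 (𝟙_ T)) i δ ∈ distTriang T) (n : ℤ)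
    (f : (𝟙_ T)⟦2 * n + 1⟧ ⟶ Am D.R (s + 1) ⊗ C), f = 0
  surj : ∀ {C : T} {i : 𝟙_ T ⟶ C} {δ : C ⟶ (𝟙_ T)⟦(1 : ℤ)⟧}
    (_ : Triangle.mk (m • 𝟙 (𝟙_ T)) i δ ∈ distTriang T) (w : ℤ)
    (f : (stdEven T).S w ⟶ Am D.R (s + 1) ⊗ C),
    ∃ (z : Cob Laz s) (a : (stdEven T).S w ⟶ Am D.R (s + 1)), Cob.IsWt w z ∧
      D.ev s z = HRing.of (stdEven T) (Am D.R (s + 1)) w a ∧
      f = a ≫ (ρ_ (Am D.R (s + 1))).inv ≫ (Am D.R (s + 1) ◁ i)
  ker : ∀ {C : T} {i : 𝟙_ T ⟶ C} {δ : C ⟶ (𝟙_ T)⟦(1 : ℤ)⟧}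
    (_ : Triangle.mk (m • 𝟙 (𝟙_ T)) i δ ∈ distTriang T) (w : ℤ) (z : Cob Laz s)
    (_ : Cob.IsWt w z) (a : (stdEven T).S w ⟶ Am D.R (s + 1))
    (_ : D.ev s z = HRing.of (stdEven T) (Am D.R (s + 1)) w a)
    (_ : a ≫ (ρ_ (Am D.R (s + 1))).inv ≫ (Am D.R (s + 1) ◁ i) = 0),
    ∃ y : Cob Laz s, Cob.IsWt w y ∧ z = m • y

theorem MooreOK.prime (D : MUData T) {p : ℕ} [Fact p.Prime] (hp : p ≠ 2) (s : ℕ) :
    MooreOK D (p : ℤ) s where
  odd hC n f := D.odd p hp s _ _ _ hC n f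
  surj hC w f := D.surj p hp s _ _ _ hC w f
  ker hC w z hz a ha h := D.ker p hp s _ _ _ hC w z hz a ha h

theorem whiskerLeft_zsmul' (X : T) {Y Z : T} (b : ℤ) (f : Y ⟶ Z) :
    X ◁ (b • f) = b • (X ◁ f) :=
  map_zsmul ((tensorLeft X).mapAddHom (X := Y) (Y := Z)) b f

theorem of_zsmul' {X : T} (w b : ℤ) (c : (stdEven T).S w ⟶ X) :
    HRing.of (stdEven T) X w (b • c) = b • HRing.of (stdEven T) X w c :=
  map_zsmul (DirectSum.of ((stdEven T).Gr X) w) b c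

theorem of_add' {X : T} (w : ℤ) (c c' : (stdEven T).S w ⟶ X) :
    HRing.of (stdEven T) X w (c + c') = HRing.of (stdEven T) X w c + HRing.of (stdEven T) X w c' :=
  map_add (DirectSum.of ((stdEven T).Gr X) w) c c'

theorem MooreOK.mul (D : MUData T) {a b : ℤ} {s : ℕ} (ha : MooreOK D a s) (hb : MooreOK D b s) :
    MooreOK D (a * b) s := by
  obtain ⟨A, i₁, δ₁, h₁⟩ := distinguished_cocone_triangle (a • 𝟙 (𝟙_ T))
  obtain ⟨B, i₃, δ₃, h₃⟩ := distinguished_cocone_triangle (b • 𝟙 (𝟙_ T))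
  have hB : OddZero (Am D.R (s + 1) ⊗ B) := by
    rintro n ⟨k, rfl⟩ f
    exact hb.odd h₃ k f
  refine ⟨fun {C i δ} hC n x => ?_, fun {C i δ} hC w x => ?_, fun {C i δ} hC w z hz c hc h0 => ?_⟩
  · obtain ⟨f, g, e, h, hf, hg⟩ := exists_moore_triangle h₁ hC h₃
    obtain ⟨y, hy⟩ := exact₂ (tens_dist (Am D.R (s + 1)) h) x (hb.odd h₃ n _)
    rw [hy, ha.odd h₁ n y, zero_comp]
  · obtain ⟨f, g, e, h, hf, hg⟩ := exists_moore_triangle h₁ hC h₃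
    obtain ⟨z, c, hz, hev, hx⟩ := hb.surj h₃ w (x ≫ Am D.R (s + 1) ◁ g)
    have h1 : (x - c ≫ (ρ_ (Am D.R (s + 1))).inv ≫ (Am D.R (s + 1) ◁ i)) ≫
        Am D.R (s + 1) ◁ g = 0 := by
      rw [Preadditive.sub_comp, Category.assoc, Category.assoc, ← whiskerLeft_comp, hg, hx,
        sub_self]
    obtain ⟨y, hy⟩ := exact₂ (tens_dist (Am D.R (s + 1)) h) _ h1
    obtain ⟨z', c', hz', hev', hy'⟩ := ha.surj h₁ w y
    refine ⟨z + b • z', c + b • c', hz.add (hz'.zsmul b), ?_, ?_⟩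
    · rw [map_add, map_zsmul, hev, hev', of_add', of_zsmul']
    · have h2 : x = y ≫ Am D.R (s + 1) ◁ f +
          c ≫ (ρ_ (Am D.R (s + 1))).inv ≫ (Am D.R (s + 1) ◁ i) := by
        rw [← hy, sub_add_cancel]
      rw [h2, hy', Category.assoc, Category.assoc, ← whiskerLeft_comp, hf, whiskerLeft_zsmul',
        Preadditive.comp_zsmul, Preadditive.comp_zsmul, Preadditive.add_comp,
        Preadditive.zsmul_comp]
      exact add_comm _ _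
  · obtain ⟨f, g, e, h, hf, hg⟩ := exists_moore_triangle h₁ hC h₃
    have h1 : c ≫ (ρ_ (Am D.R (s + 1))).inv ≫ (Am D.R (s + 1) ◁ i₃) = 0 := by
      rw [← hg, whiskerLeft_comp, reassoc_of% h0, zero_comp]
    obtain ⟨y₁, hy₁, hz₁⟩ := hb.ker h₃ w z hz c hc h1
    obtain ⟨c₁, hc₁⟩ := D.ev_wt s w y₁ hy₁
    have h2 : c = b • c₁ := by
      refine DirectSum.of_injective (β := (stdEven T).Gr (Am D.R (s + 1))) w ?_
      refine (hc.symm.trans ?_)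
      rw [hz₁, map_zsmul, hc₁, ← of_zsmul']
    have h3 : c₁ ≫ (ρ_ (Am D.R (s + 1))).inv ≫ (Am D.R (s + 1) ◁ i₁) = 0 := by
      refine injective_S_of_oddZero (tens_dist (Am D.R (s + 1)) h) hB w _ ?_
      rw [Category.assoc, Category.assoc, ← whiskerLeft_comp, hf, whiskerLeft_zsmul',
        Preadditive.comp_zsmul, Preadditive.comp_zsmul, ← Preadditive.zsmul_comp, ← h2, h0]
    obtain ⟨y, hy, hz₂⟩ := ha.ker h₁ w y₁ hy₁ c₁ hc₁ h3
    exact ⟨y, hy, by rw [hz₁, hz₂, smul_smul, mul_comm]⟩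

theorem mooreOK_pow (D : MUData T) {p k : ℕ} [Fact p.Prime] (hp : p ≠ 2) (hk : 1 ≤ k) (s : ℕ) :
    MooreOK D ((p ^ k : ℕ) : ℤ) s := by
  induction k, hk using Nat.le_induction with
  | base => rw [pow_one]; exact MooreOK.prime D hp s
  | succ k _ ih =>
    rw [pow_succ, Nat.cast_mul]
    exact ih.mul D (MooreOK.prime D hp s)

/-! ### (K4) the homotopy of `R^{⊗ (s+1)} ⊗ C`, `C` the cofibre of `p^k` -/

section K4

variable (D : MUData T) {p k : ℕ} [Fact p.Prime] (hp : p ≠ 2) (hk : 1 ≤ k) (s : ℕ) {C : T}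
  {i : 𝟙_ T ⟶ C} {δ : C ⟶ (𝟙_ T)⟦(1 : ℤ)⟧}
  (hC : Triangle.mk (((p ^ k : ℕ) : ℤ) • 𝟙 (𝟙_ T)) i δ ∈ distTriang T)

include hp hk hC

theorem moore_odd (n : ℤ) (f : (𝟙_ T)⟦2 * n + 1⟧ ⟶ Am D.R (s + 1) ⊗ C) : f = 0 :=
  (mooreOK_pow D hp hk s).odd hC n f

theorem moore_surj (w : ℤ) (f : (stdEven T).S w ⟶ Am D.R (s + 1) ⊗ C) :
    ∃ (z : Cob Laz s) (a : (stdEven T).S w ⟶ Am D.R (s + 1)), Cob.IsWt w z ∧
      D.ev s z = HRing.of (stdEven T) (Am D.R (s + 1)) w a ∧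
      f = a ≫ (ρ_ (Am D.R (s + 1))).inv ≫ (Am D.R (s + 1) ◁ i) :=
  (mooreOK_pow D hp hk s).surj hC w f

theorem moore_ker (w : ℤ) (z : Cob Laz s)
    (hz : Cob.IsWt w z) (a : (stdEven T).S w ⟶ Am D.R (s + 1))
    (ha : D.ev s z = HRing.of (stdEven T) (Am D.R (s + 1)) w a)
    (h : a ≫ (ρ_ (Am D.R (s + 1))).inv ≫ (Am D.R (s + 1) ◁ i) = 0) :
    ∃ y : Cob Laz s, Cob.IsWt w y ∧ z = ((p ^ k : ℕ) : ℤ) • y :=
  (mooreOK_pow D hp hk s).ker hC w z hz a ha h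

end K4

end Vale.Agent.P261
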