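import Vale.Agent.P261.H468.Spec
import Vale.Agent.P261.H49.A1

/-!
# P261, leaf A2: restriction of a level to the divisor `X_0 = 0`

`res0 : k[[X_0, …, X_n]] → k[[X_0, …, X_{n-1}]]` sets `X_0 = 0` and shifts the other variables.
-/

open Vale.Agent.P251.F Vale.Agent.P251 Vale.Agent.P217

namespace Vale.Agent.P261

/-- Restriction to `X_0 = 0`. -/
noncomputable def res0 (k : Type) [Field k] (n : ℕ) :
    MvPowerSeries (Fin (n + 1)) k →+* MvPowerSeries (Fin n) k :=
  (PowerSeries.constantCoeff (R := MvPowerSeries (Fin n) k)).comp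
    (MvPowerSeries.finSuccEquiv (R := k) (n := n) : _ →+* _)

namespace H555

/-- The section of `res0`. -/
noncomputable def emb0 (k : Type) [Field k] (n : ℕ) :
    MvPowerSeries (Fin n) k →+* MvPowerSeries (Fin (n + 1)) k :=
  ((MvPowerSeries.finSuccEquiv (R := k) (n := n)).symm : _ →+* _).comp
    (PowerSeries.C (R := MvPowerSeries (Fin n) k))

variable {k : Type} [Field k] {n : ℕ}

theorem res0_apply (a : MvPowerSeries (Fin (n + 1)) k) :
    res0 k n a = PowerSeries.constantCoeff (MvPowerSeries.finSuccEquiv k n a) := rfl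

theorem coeff_res0 (a : MvPowerSeries (Fin (n + 1)) k) (e : Fin n →₀ ℕ) :
    MvPowerSeries.coeff e (res0 k n a) = MvPowerSeries.coeff (e.cons 0) a := by
  rw [res0_apply, ← PowerSeries.coeff_zero_eq_constantCoeff_apply,
    MvPowerSeries.coeff_coeff_finSuccEquiv]

theorem res0_emb0 (b : MvPowerSeries (Fin n) k) : res0 k n (emb0 k n b) = b := by
  rw [res0_apply]
  change PowerSeries.constantCoeff (MvPowerSeries.finSuccEquiv k n
    ((MvPowerSeries.finSuccEquiv k n).symm (PowerSeries.C b))) = b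
  rw [AlgEquiv.apply_symm_apply, PowerSeries.constantCoeff_C]

theorem res0_C (c : k) : res0 k n (MvPowerSeries.C c) = MvPowerSeries.C c := by
  rw [res0_apply, MvPowerSeries.finSuccEquiv_C, PowerSeries.constantCoeff_C]

theorem res0_X_zero : res0 k n (MvPowerSeries.X 0) = 0 := by
  rw [res0_apply, MvPowerSeries.finSuccEquiv_X_zero, PowerSeries.constantCoeff_X]

theorem res0_X_succ (j : Fin n) : res0 k n (MvPowerSeries.X j.succ) = MvPowerSeries.X j := by
  rw [res0_apply, MvPowerSeries.finSuccEquiv_X_succ, PowerSeries.constantCoeff_C]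

theorem emb0_C (c : k) : emb0 k n (MvPowerSeries.C c) = MvPowerSeries.C c := by
  change (MvPowerSeries.finSuccEquiv k n).symm (PowerSeries.C (MvPowerSeries.C c)) = _
  rw [← MvPowerSeries.finSuccEquiv_C, AlgEquiv.symm_apply_apply]

theorem constantCoeff_res0 (a : MvPowerSeries (Fin (n + 1)) k) :
    MvPowerSeries.constantCoeff (res0 k n a) = MvPowerSeries.constantCoeff a := by
  rw [← MvPowerSeries.coeff_zero_eq_constantCoeff_apply, coeff_res0, Finsupp.cons_zero_zero,
    MvPowerSeries.coeff_zero_eq_constantCoeff_apply]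

theorem constantCoeff_comp_res0 :
    (MvPowerSeries.constantCoeff (σ := Fin n) (R := k)).comp (res0 k n) =
      MvPowerSeries.constantCoeff := by
  ext a
  exact constantCoeff_res0 a

theorem constantCoeff_emb0 (b : MvPowerSeries (Fin n) k) :
    MvPowerSeries.constantCoeff (emb0 k n b) = MvPowerSeries.constantCoeff b := by
  rw [← constantCoeff_res0, res0_emb0]

theorem coeff_cons_emb0 (b : MvPowerSeries (Fin n) k) (e : Fin n →₀ ℕ) :
    MvPowerSeries.coeff (e.cons 0) (emb0 k n b) = MvPowerSeries.coeff e b := by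
  rw [← coeff_res0, res0_emb0]

theorem degree_cons_zero (e : Fin n →₀ ℕ) : (e.cons 0).degree = e.degree := by
  rw [Finsupp.degree_eq_sum, Finsupp.degree_eq_sum, Fin.sum_univ_succ]
  simp

theorem exists_of_res0_eq_zero (a : MvPowerSeries (Fin (n + 1)) k) (ha : res0 k n a = 0) :
    ∃ b, a = MvPowerSeries.X 0 * b := by
  rw [res0_apply] at ha
  obtain ⟨q, hq⟩ := PowerSeries.X_dvd_iff.2 ha
  refine ⟨(MvPowerSeries.finSuccEquiv k n).symm q, ?_⟩
  apply (MvPowerSeries.finSuccEquiv k n).injective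
  rw [map_mul, AlgEquiv.apply_symm_apply, MvPowerSeries.finSuccEquiv_X_zero, hq]

theorem X_ne_zero' : (MvPowerSeries.X 0 : MvPowerSeries (Fin (n + 1)) k) ≠ 0 := by
  intro h
  have := congrArg (MvPowerSeries.finSuccEquiv k n) h
  rw [MvPowerSeries.finSuccEquiv_X_zero, map_zero] at this
  exact PowerSeries.X_ne_zero this

theorem sep (a : MvPowerSeries (Fin (n + 1)) k)
    (h : ∀ N : ℕ, ∃ b, a = MvPowerSeries.X 0 ^ N * b) : a = 0 := by
  apply (MvPowerSeries.finSuccEquiv k n).injective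
  rw [map_zero]
  ext1 i
  obtain ⟨b, hb⟩ := h (i + 1)
  rw [hb, map_mul, map_pow, MvPowerSeries.finSuccEquiv_X_zero, map_zero,
    PowerSeries.coeff_X_pow_mul', if_neg (by omega)]

end H555

open H555

/-- The weight of `X_0`. -/
theorem Lev.φ_X0 {p h : ℕ} [Fact p.Prime] {k : Type} [Field k] {H : Law k} {n : ℕ}
    (L : Lev p h H (n + 1)) (γ : AutF H.toFG) :
    L.φ γ (MvPowerSeries.X 0) =
      (((L.g γ).lead ^ ((p : ℤ) ^ L.m - 1) : (MvPowerSeries (Fin (n + 1)) k)ˣ) :
        MvPowerSeries (Fin (n + 1)) k) * MvPowerSeries.X 0 := by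
  have h1 := (vv_smul_of_zero p L.m (L.F.map (L.φ γ)) (L.g γ) fun i hi => by
    rw [vv_map, L.vlow i hi, map_zero]).2
  have h2 : vv p L.m L.F = MvPowerSeries.X 0 := L.vX 0
  rw [L.law γ, vv_map, h2, ← InvSeries.lead_val] at h1
  have h3 : L.φ γ (MvPowerSeries.X 0) = (((L.g γ).lead⁻¹ : (MvPowerSeries (Fin (n + 1)) k)ˣ) :
        MvPowerSeries (Fin (n + 1)) k) *
      (MvPowerSeries.X 0 * ((L.g γ).lead : MvPowerSeries (Fin (n + 1)) k) ^ p ^ L.m) := by
    rw [h1, ← mul_assoc, Units.inv_mul, one_mul]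
  have h4 : ((L.g γ).lead ^ ((p : ℤ) ^ L.m - 1) : (MvPowerSeries (Fin (n + 1)) k)ˣ) =
      (L.g γ).lead⁻¹ * (L.g γ).lead ^ (p ^ L.m) := by
    rw [zpow_sub_one, mul_comm, ← zpow_natCast, Nat.cast_pow]
  rw [h3, h4, Units.val_mul, Units.val_pow_eq_pow_val]
  ring

/-- Restriction of a level to `X_0 = 0`. -/
theorem Lev.exists_restrict {p h : ℕ} [Fact p.Prime] {k : Type} [Field k] {H : Law k} {n : ℕ}
    (L : Lev p h H (n + 1)) : ∃ L' : Lev p h H n, L'.m = L.m + 1 ∧
      (∀ γ a, res0 k n (L.φ γ a) = L'.φ γ (res0 k n a)) ∧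
      ∀ γ, L'.g γ = InvSeries.map (res0 k n) (L.g γ) := by
  have key : ∀ γ a, res0 k n (L.φ γ a) = res0 k n (L.φ γ (emb0 k n (res0 k n a))) := by
    intro γ a
    obtain ⟨b, hb⟩ := exists_of_res0_eq_zero (a - emb0 k n (res0 k n a))
      (by rw [map_sub, res0_emb0, sub_self])
    rw [← sub_eq_zero, ← map_sub, ← map_sub, hb, map_mul, L.φ_X0 γ, map_mul, map_mul,
      res0_X_zero, mul_zero, zero_mul]
  have hcomp : ∀ γ, (((res0 k n).comp ((L.φ γ).comp (emb0 k n))).comp (res0 k n)) =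
      (res0 k n).comp (L.φ γ) := by
    intro γ
    ext1 a
    exact (key γ a).symm
  refine ⟨{ m := L.m + 1
            hm := by have := L.hm; omega
            F := L.F.map (res0 k n)
            φ := fun γ => (res0 k n).comp ((L.φ γ).comp (emb0 k n))
            g := fun γ => InvSeries.map (res0 k n) (L.g γ)
            law := ?_
            vlow := ?_
            vX := ?_
            alg := ?_
            red := ?_
            gred := ?_
            Fred := ?_
            cont := ?_ }, rfl, fun γ a => key γ a, fun γ => rfl⟩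
  · intro γ
    rw [Law.map_map, hcomp, ← Law.map_map, ← InvSeries.map_smul, L.law γ]
  · intro i hi
    rw [vv_map]
    rcases Nat.lt_succ_iff_lt_or_eq.1 hi with h1 | rfl
    · rw [L.vlow i h1, map_zero]
    · have h2 : vv p L.m L.F = MvPowerSeries.X 0 := L.vX 0
      rw [h2, res0_X_zero]
  · intro i
    have h1 := L.vX i.succ
    rw [Fin.val_succ] at h1
    rw [vv_map, show L.m + 1 + (i : ℕ) = L.m + (i + 1) by omega, h1, res0_X_succ]
  · intro γ c
    change res0 k n (L.φ γ (emb0 k n (MvPowerSeries.C c))) = _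
    rw [emb0_C, L.alg, res0_C]
  · intro γ a
    change MvPowerSeries.constantCoeff (res0 k n (L.φ γ (emb0 k n a))) = _
    rw [constantCoeff_res0, L.red, constantCoeff_emb0]
  · intro γ
    rw [InvSeries.map_map, constantCoeff_comp_res0]
    exact L.gred γ
  · rw [Law.map_map, constantCoeff_comp_res0]
    exact L.Fred
  · intro M
    obtain ⟨m', hm'⟩ := L.cont M
    refine ⟨m', fun γ hγ a e he => ?_⟩
    change MvPowerSeries.coeff e (res0 k n (L.φ γ (emb0 k n a))) = _
    rw [coeff_res0, hm' γ hγ _ _ (by rwa [degree_cons_zero]), coeff_cons_emb0]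

/-- The induction step. -/
theorem Lev.fin_succ {p h : ℕ} [Fact p.Prime] {k : Type} [Field k] {H : Law k} {n : ℕ}
    (ih : ∀ L' : Lev p h H n, 1 ≤ L'.m → L'.IsFin) (L : Lev p h H (n + 1)) (hm : 1 ≤ L.m) :
    L.IsFin := by
  obtain ⟨L', hL'm, hφ, hg⟩ := L.exists_restrict
  have hfin := ih L' (by omega)
  have hlead : ∀ γ, (L'.g γ).lead = Units.map (res0 k n : _ →* _) (L.g γ).lead := by
    intro γ
    rw [hg γ]
    exact InvSeries.lead_map _ _
  have hset : ∀ (w : ℤ) (a : MvPowerSeries (Fin n) k),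
      (∀ γ, L'.φ γ a = ((Units.map (res0 k n : _ →* _) (L.g γ).lead ^ w :
        (MvPowerSeries (Fin n) k)ˣ) : MvPowerSeries (Fin n) k) * a) ↔ a ∈ L'.inv w := by
    intro w a
    change _ ↔ ∀ γ, L'.φ γ a = (((L'.g γ).lead ^ w : (MvPowerSeries (Fin n) k)ˣ) :
      MvPowerSeries (Fin n) k) * a
    refine forall_congr' fun γ => ?_
    rw [hlead γ]
  have hd : (0 : ℤ) < (p : ℤ) ^ L.m - 1 := by
    have h1 : 1 < p ^ L.m := Nat.one_lt_pow (by omega) (Fact.out : p.Prime).one_lt
    have h2 : (1 : ℤ) < (p : ℤ) ^ L.m := by exact_mod_cast h1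
    omega
  intro w
  have := finite_of_step (ι := AutF H.toFG) L.φ (fun γ => (L.g γ).lead) L'.φ (res0 k n) hφ
    (MvPowerSeries.X 0)
    (fun a ha => (mul_eq_zero.1 ha).resolve_left X_ne_zero')
    exists_of_res0_eq_zero sep ((p : ℤ) ^ L.m - 1) hd (fun γ => L.φ_X0 γ)
    (fun w => by
      convert (hfin w).1 using 1
      ext a
      exact hset w a)
    (fun w hw a ha => (hfin w).2 hw a ((hset w a).1 ha)) w
  exact this

end Vale.Agent.P261
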